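import Vale.Agent.P144D.I.Mark.B

/-!
Marked points of a boundary condition: the theorem.
-/

namespace Vale.Agent.P144Z

open Finset

namespace IMark

open GeoA B5b

variable {Λ : Finset (ℤ × ℤ)} {b : ℤ × ℤ → Bool} {κ : ℝ} {r ρ K₂ : ℕ}

/-- There is no sign change in the annulus. -/
theorem Loc.gap {z x v : ℤ × ℤ} {e : Fin 4} {σ : Bool} {R : ℕ} (h : Loc Λ b κ r ρ K₂ z x e σ)
    (hR : R + 1 ≤ ρ) (hv : Bad Λ b R v) : zd v z ≤ K₂ ∨ r ≤ zd v z + ρ := by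
  by_contra h1
  push Not at h1
  obtain ⟨⟨a, ⟨r1, r2⟩, hw⟩, u, hu, huz⟩ := hv
  have key : ∀ k, v - cn k ∉ Λ → (2 ≤ hE (e + 1) (v - cn k - x) ∧ b (v - cn k) = σ) ∨
      (hE (e + 1) (v - cn k - x) ≤ -2 ∧ b (v - cn k) = !σ) := fun k hk => by
    have a1 := zd_cn v k
    have a2 := zd_tri (v - cn k) v z
    have a3 := zd_tri v (v - cn k) z
    have a4 := zd_tri u v (v - cn k)
    rw [zd_comm v (v - cn k)] at a3 a4
    exact h.side _ hk ⟨u, hu, by omega⟩ (by omega) (by omega)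
  have a5 := hE_cn (e + 1) a x v
  rcases key _ r1 with ⟨c1, c2⟩ | ⟨c1, c2⟩ <;> rcases key _ r2 with ⟨c3, c4⟩ | ⟨c3, c4⟩
  · exact hw (c2.trans c4.symm)
  · omega
  · omega
  · exact hw (c2.trans c4.symm)

/-- A maximal separated family. -/
theorem exists_net (W : Finset (ℤ × ℤ)) (D : ℕ) : ∃ F ⊆ W,
    (∀ z ∈ F, ∀ z' ∈ F, z ≠ z' → D < zd z z') ∧ ∀ v ∈ W, ∃ z ∈ F, zd v z ≤ D := by
  classical
  obtain ⟨F, hF, hmax⟩ := exists_max_image
    (W.powerset.filter fun F => ∀ z ∈ F, ∀ z' ∈ F, z ≠ z' → D < zd z z') card ⟨∅, by simp⟩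
  simp only [mem_filter, mem_powerset] at hF hmax
  refine ⟨F, hF.1, hF.2, fun v hv => ?_⟩
  by_contra h
  push Not at h
  have h1 : v ∉ F := fun h2 => by simpa [zd] using h v h2
  have h2 := hmax (insert v F) (by
    refine ⟨insert_subset hv hF.1, fun z hz z' hz' hne => ?_⟩
    rw [mem_insert] at hz hz'
    rcases hz with rfl | hz <;> rcases hz' with rfl | hz'
    · exact (hne rfl).elim
    · exact h _ hz'
    · rw [zd_comm]; exact h _ hz
    · exact hF.2 _ hz _ hz' hne)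
  rw [card_insert_of_notMem h1] at h2
  omega

/-- Separated points in a box are few. -/
theorem card_net (F : Finset (ℤ × ℤ)) {l N : ℕ} (hl : 0 < l) (h1 : ∀ z ∈ F, zd z 0 ≤ N * l)
    (h2 : ∀ z ∈ F, ∀ z' ∈ F, z ≠ z' → l < zd z z') : F.card ≤ (2 * N + 1) ^ 2 := by
  have hl' : (0 : ℤ) < l := by exact_mod_cast hl
  have h3 : ∀ a : ℤ, |a| ≤ (N * l : ℕ) → a / l ∈ Icc (-(N : ℤ)) N := fun a ha => by
    have := abs_ediv (a := a) (a' := 0) (m := N) hl' (by simpa using ha)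
    simpa [abs_le] using this
  refine (card_le_card_of_injOn (t := Icc (-(N : ℤ)) N ×ˢ Icc (-(N : ℤ)) N) (key l)
    (fun z hz => ?_) fun z hz z' hz' e => ?_).trans ?_
  · have := bx_iff.1 (h1 z hz)
    exact mem_coe.2 (mem_product.2 ⟨h3 _ this.1, h3 _ this.2⟩)
  · by_contra h
    have a1 := h2 z hz z' hz' h
    have a2 := abs_of_ediv hl' (congrArg Prod.fst e)
    have a3 := abs_of_ediv hl' (congrArg Prod.snd e)
    rw [abs_le] at a2 a3
    unfold zd at a1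
    omega
  · rw [card_product, Int.card_Icc, sq]
    exact Nat.mul_le_mul (by omega) (by omega)

open Classical in
/-- The boundary condition that is cleaned near the marked vertices. -/
noncomputable def clean (b : ℤ × ℤ → Bool) {k : ℕ} (x : Fin k → ℤ × ℤ) (e : Fin k → Fin 4)
    (σ : Fin k → Bool) (K : ℕ) (g : ℤ × ℤ) : Bool :=
  if h : ∃ i, zd g (x i) ≤ K then
    (if lt (e h.choose) (x h.choose) g then σ h.choose else !σ h.choose) else b g

open Classical in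
theorem clean_in {k : ℕ} {x : Fin k → ℤ × ℤ} (e : Fin k → Fin 4) (σ : Fin k → Bool) {K : ℕ}
    (hs : ∀ i i', i ≠ i' → 2 * K < zd (x i) (x i')) {g : ℤ × ℤ} {i : Fin k}
    (hg : zd g (x i) ≤ K) : clean b x e σ K g = if lt (e i) (x i) g then σ i else !σ i := by
  have h : ∃ i, zd g (x i) ≤ K := ⟨i, hg⟩
  have h1 : h.choose = i := by
    by_contra h2
    have a1 := hs _ _ h2
    have a2 := h.choose_spec
    have a3 := zd_tri (x h.choose) g (x i)
    rw [zd_comm _ g] at a3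
    omega
  rw [clean, dif_pos h, h1]

theorem clean_out {k : ℕ} {x : Fin k → ℤ × ℤ} (e : Fin k → Fin 4) (σ : Fin k → Bool) {K : ℕ}
    {g : ℤ × ℤ} (hg : ∀ i, K < zd g (x i)) : clean b x e σ K g = b g := by
  rw [clean, dif_neg]
  rintro ⟨i, hi⟩
  exact (hg i).not_ge hi

theorem mkB {k R₀ : ℕ} {z x : Fin k → ℤ × ℤ} {e : Fin k → Fin 4} {σ : Fin k → Bool}
    (hκ : κ ≤ 1 / 2) (h : ∀ i, Loc Λ b κ r ρ K₂ (z i) (x i) (e i) (σ i)) (hρ : R₀ + 2 ≤ ρ)
    (hr : 4 * (K₂ + 10 * ρ + 2) ≤ r) (hs : ∀ i i', i ≠ i' → r / 2 < zd (x i) (x i'))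
    (hc : ∀ v, Bad Λ b (R₀ + 1) v → ∃ i, zd v (z i) ≤ K₂) :
    MkB Λ b (clean b x e σ (K₂ + 10 * ρ + 1)) R₀ (K₂ + 10 * ρ + 2) x e := by
  classical
  have hs' : ∀ i i', i ≠ i' → 2 * (K₂ + 10 * ρ + 1) < zd (x i) (x i') := fun i i' hi => by
    have := hs i i' hi
    omega
  have hc' : ∀ v, Bad Λ b (R₀ + 1) v → ∃ i, zd v (x i) ≤ K₂ + 10 * ρ := fun v hv => by
    obtain ⟨i, hi⟩ := hc v hv
    have a1 := (h i).near
    have a2 := zd_tri v (z i) (x i)
    rw [zd_comm (z i)] at a2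
    exact ⟨i, by omega⟩
  have cn2 : ∀ (v y : ℤ × ℤ) (j : Fin 4), zd (v - cn j) y ≤ zd v y + 1 ∧
      zd v y ≤ zd (v - cn j) y + 1 := fun v y j => by
    have a1 := zd_cn v j
    have a2 := zd_tri (v - cn j) v y
    have a3 := zd_tri v (v - cn j) y
    rw [zd_comm v (v - cn j)] at a3
    omega
  refine ⟨fun v a ht hrem => ?_, fun v hv => clean_out e σ fun i => by have := hv i; omega,
    fun v a hrem hw ⟨u, hu, hu'⟩ => ?_⟩
  · by_cases hv : ∃ i, zd v (x i) ≤ K₂ + 10 * ρ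
    · obtain ⟨i, hi⟩ := hv
      have a1 := cn2 v (x i) (a - 1)
      have a2 := cn2 v (x i) a
      have a3 : WallE (clean b x e σ (K₂ + 10 * ρ + 1)) v a ↔
          hE (e i + 1) (v - x i) = 0 ∧ (a = e i ∨ a = e i + 2) := by
        rw [← lt_wall, WallE, clean_in e σ hs' (i := i) (by omega),
          clean_in e σ hs' (i := i) (by omega)]
        by_cases c1 : lt (e i) (x i) (v - cn (a - 1)) <;> by_cases c2 : lt (e i) (x i) (v - cn a) <;>
          simp [c1, c2]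
      rw [a3]
      constructor
      · rintro ⟨c1, c2⟩
        exact ⟨i, line_rem (h i).mk1 hκ (h i).low (by omega) c1 c2 ht hrem⟩
      · rintro ⟨j, rfl, rfl⟩
        obtain rfl : j = i := by
          by_contra c
          have := hs' j i c
          omega
        exact ⟨by simp [hE], Or.inr rfl⟩
    · have hv' : ∀ i, K₂ + 10 * ρ < zd v (x i) := fun i => not_le.1 fun c => hv ⟨i, c⟩
      obtain ⟨j, hj⟩ := ht
      have same : ∀ c, v - cn c ∉ Λ → clean b x e σ (K₂ + 10 * ρ + 1) (v - cn c) = b (v - cn c) := by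
        intro c hcn
        by_cases c1 : ∃ i, zd (v - cn c) (x i) ≤ K₂ + 10 * ρ + 1
        · obtain ⟨i, hi⟩ := c1
          rw [clean_in e σ hs' hi]
          have a1 := cn2 v (x i) c
          have a2 := hv' i
          have a3 := (h i).near
          have a4 := zd_tri (v - cn c) (z i) (x i)
          have a5 := zd_tri (v - cn c) (x i) (z i)
          have a6 := cn2 v (v - cn c) j
          have a7 := zd_cn v c
          rw [zd_comm (z i)] at a4
          rw [zd_comm] at a7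
          rcases (h i).side _ hcn ⟨_, hj, by omega⟩ (by omega) (by omega) with ⟨c2, c3⟩ | ⟨c2, c3⟩
          · rw [if_pos (lt_of c2), c3]
          · rw [if_neg (not_lt_of c2), c3]
        · exact clean_out e σ fun i => not_le.1 fun c => c1 ⟨i, c⟩
      refine ⟨fun hw => (hv (hc' v ⟨⟨a, hrem, ?_⟩, _, hj, ?_⟩)).elim, ?_⟩
      · rwa [WallE, same _ hrem.1, same _ hrem.2] at hw
      · have := zd_cn v j
        omega
      · rintro ⟨i, rfl, -⟩
        simpa [zd] using hv' i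
  · by_contra c
    push Not at c
    have same : ∀ j, clean b x e σ (K₂ + 10 * ρ + 1) (v - cn j) = b (v - cn j) := fun j =>
      clean_out e σ fun i => by
        have a1 := cn2 v (x i) j
        have a2 := c i
        omega
    obtain ⟨i, hi⟩ := hc' v ⟨⟨a, hrem, by rwa [WallE, same, same] at hw⟩, u, hu, by omega⟩
    have := c i
    omega

end IMark

open IMark GeoA B5b

theorem markStmt : MarkStmt := by
  classical
  intro α hα R₀
  obtain ⟨ρ, hρ⟩ : ∃ ρ, ρ = R₀ + 2 := ⟨_, rfl⟩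
  obtain ⟨W, hW⟩ := exists_nat_ge (12 * (4 * ρ + 5 : ℝ) / α)
  obtain ⟨K₂, hK₂⟩ : ∃ K₂, K₂ = 3 * (W + 2) + 16 * ρ + 16 := ⟨_, rfl⟩
  refine ⟨K₂ + 10 * ρ + 2, fun Λ₀ => ⟨(2 * (3 * (Λ₀ + 1)) + 1) ^ 2, ?_⟩⟩
  intro κ hκ hκα r hr Λ b h hΛ
  have hW' : 12 * (4 * ρ + 5 : ℝ) ≤ α * (W + 2 : ℕ) := by
    rw [div_le_iff₀ hα] at hW
    push_cast
    nlinarith
  have loc : ∀ z, Bad Λ b (R₀ + 1) z → ∃ x e σ, Loc Λ b κ r ρ K₂ z x e σ := fun z hz =>
    hK₂ ▸ exists_loc h hκ hκα (by omega) hW' (by omega) (by omega)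
      ⟨hz.1, hz.2.imp fun u hu => ⟨hu.1, by omega⟩⟩
  have box : ∀ z, Bad Λ b (R₀ + 1) z → zd z 0 ≤ (Λ₀ + 1) * r := by
    rintro z ⟨-, u, hu, hu'⟩
    have a1 := hΛ u hu
    have a2 := zd_tri z u 0
    rw [zd_comm z u] at a2
    rw [add_mul]
    omega
  obtain ⟨F, f1, f2, f3⟩ := exists_net
    ((Icc (-((Λ₀ + 1) * r : ℕ) : ℤ) ((Λ₀ + 1) * r : ℕ) ×ˢ
      Icc (-((Λ₀ + 1) * r : ℕ) : ℤ) ((Λ₀ + 1) * r : ℕ)).filter (Bad Λ b (R₀ + 1))) K₂
  have bad : ∀ z ∈ F, Bad Λ b (R₀ + 1) z := fun z hz => (mem_filter.1 (f1 hz)).2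
  have f4 : ∀ z ∈ F, ∀ z' ∈ F, z ≠ z' → r ≤ zd z z' + ρ := fun z hz z' hz' hne => by
    obtain ⟨x, e, σ, hl⟩ := loc z' (bad z' hz')
    exact (hl.gap (by omega) (bad z hz)).resolve_left (f2 z hz z' hz' hne).not_ge
  obtain ⟨z, hz, zi, zs⟩ : ∃ z : Fin F.card → ℤ × ℤ, (∀ i, z i ∈ F) ∧ Function.Injective z ∧
      ∀ v ∈ F, ∃ i, z i = v :=
    ⟨fun i => F.equivFin.symm i, fun i => (F.equivFin.symm i).2,
      Subtype.val_injective.comp F.equivFin.symm.injective,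
      fun v hv => ⟨F.equivFin ⟨v, hv⟩, by simp⟩⟩
  choose x e σ hl using fun i => loc (z i) (bad _ (hz i))
  have hs : ∀ i i', i ≠ i' → r / 2 < zd (x i) (x i') := fun i i' hi => by
    have a1 := f4 _ (hz i) _ (hz i') (zi.ne hi)
    have a2 := (hl i).near
    have a3 := (hl i').near
    have a4 := zd_tri (z i) (x i) (z i')
    have a5 := zd_tri (x i) (x i') (z i')
    rw [zd_comm (z i) (x i)] at a4
    omega
  have hc : ∀ v, Bad Λ b (R₀ + 1) v → ∃ i, zd v (z i) ≤ K₂ := fun v hv => by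
    have a1 := bx_iff.1 (box v hv)
    obtain ⟨y, hy, hy'⟩ := f3 v (mem_filter.2 ⟨mem_product.2
      ⟨mem_Icc.2 (abs_le.1 a1.1), mem_Icc.2 (abs_le.1 a1.2)⟩, hv⟩)
    obtain ⟨i, rfl⟩ := zs y hy
    exact ⟨i, hy'⟩
  refine ⟨F.card, card_net F (l := r / 2) (by omega) (fun z hz => (box z (bad z hz)).trans ?_)
    fun z hz z' hz' hne => ?_, x, e, ?_⟩
  · rw [mul_comm 3, mul_assoc]
    exact Nat.mul_le_mul_left _ (by omega)
  · have := f4 z hz z' hz' hne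
    omega
  by_cases hκ2 : κ ≤ 1 / 2
  · exact ⟨_, ⟨fun i => (hl i).mk1, hs⟩, mkB hκ2 hl (by omega) (by omega) hs hc⟩
  · have no : ∀ v, ¬ Bad Λ b (R₀ + 1) v := by
      rintro v ⟨⟨a, ⟨r1, r2⟩, hw⟩, u, hu, hu'⟩
      have a1 := zd_cn v (a - 1)
      have a2 := zd_cn v a
      rcases h v ⟨u, hu, by omega⟩ with h1 | h1 | ⟨S, S', ν, τ, n1, n2, n3, n4, -⟩
      · exact hw ((h1 _ (by omega) r1).trans (h1 _ (by omega) r2).symm)
      · exact hw ((h1 _ (by omega) r1).trans (h1 _ (by omega) r2).symm)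
      · have := (det_ge n1 n2 hα n3 n4).2
        linarith [not_le.1 hκ2]
    have em : ∀ i : Fin F.card, False := fun i => no _ (bad _ (hz i))
    refine ⟨b, ⟨fun i => (em i).elim, hs⟩, fun v a ⟨j, hj⟩ hrem => ⟨fun hw => ?_, ?_⟩,
      fun _ _ => rfl, fun v a hrem hw ⟨u, hu, hu'⟩ => ?_⟩
    · have := zd_cn v j
      exact (no v ⟨⟨a, hrem, hw⟩, _, hj, by omega⟩).elim
    · rintro ⟨i, -⟩
      exact (em i).elim
    · exact (no v ⟨⟨a, hrem, hw⟩, u, hu, by omega⟩).elim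

end Vale.Agent.P144Z
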