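import Vale.Agent.P144D.I.Defs
import Vale.Agent.P144D.Geo.Cov

/-!
Marked points of a boundary condition, first part: coordinates along a direction and the local
structure at a sign change.
-/

namespace Vale.Agent.P144Z

namespace IMark

open GeoA B5b

/-- The coordinate of `d` in the direction `e`. -/
def hE (e : Fin 4) (d : ℤ × ℤ) : ℤ := d.1 * (st4 e).1 + d.2 * (st4 e).2

theorem ht_eq (ν : ℂ) (e : Fin 4) (d : ℤ × ℤ) :
    ht ν d = hE e d * ht ν (st4 e) + hE (e + 1) d * ht ν (st4 (e + 1)) := by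
  fin_cases e <;> simp [ht, hE, st4] <;> ring

theorem sq_eq {ν : ℂ} (h : ‖ν‖ = 1) (e : Fin 4) :
    ht ν (st4 e) ^ 2 + ht ν (st4 (e + 1)) ^ 2 = 1 := by
  have := sq_add h
  fin_cases e <;> simp [ht, st4] <;> linarith

theorem det_eq (ν τ : ℂ) (e : Fin 4) :
    ht ν (st4 e) * ht τ (st4 (e + 1)) - ht ν (st4 (e + 1)) * ht τ (st4 e) =
      ν.re * τ.im - ν.im * τ.re := by
  fin_cases e <;> simp [ht, st4] <;> ring

theorem len_le' (e : Fin 4) (d : ℤ × ℤ) : len d ≤ |(hE e d : ℝ)| + |(hE (e + 1) d : ℝ)| := by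
  have := len_le d
  fin_cases e <;> simp [hE, st4] <;> linarith

theorem zd_eq (e : Fin 4) (g z : ℤ × ℤ) :
    zd g z = max (hE e (g - z)).natAbs (hE (e + 1) (g - z)).natAbs := by
  fin_cases e <;> simp [hE, st4, zd] <;> omega

theorem exists_dir {ν : ℂ} (h : ‖ν‖ = 1) : ∃ e : Fin 4, 1 / 2 ≤ ht ν (st4 e) := by
  obtain ⟨e, he, h1⟩ := exists_best h
  rcases he with rfl | rfl | rfl | rfl
  exacts [⟨0, h1⟩, ⟨1, h1⟩, ⟨2, h1⟩, ⟨3, h1⟩]

/-- transversal unit vectors have a large determinant -/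
theorem det_ge {ν τ : ℂ} {α : ℝ} (h1 : ‖ν‖ = 1) (h2 : ‖τ‖ = 1) (hα : 0 < α) (h3 : α ≤ ‖ν + τ‖)
    (h4 : α ≤ ‖ν - τ‖) : α / 2 ≤ |ν.re * τ.im - ν.im * τ.re| ∧ α ≤ 2 := by
  have e1 := sq_add h1
  have e2 := sq_add h2
  have e3 := Complex.sq_norm (ν + τ)
  have e4 := Complex.sq_norm (ν - τ)
  rw [Complex.normSq_apply, Complex.add_re, Complex.add_im] at e3
  rw [Complex.normSq_apply, Complex.sub_re, Complex.sub_im] at e4
  have f3 : α ^ 2 ≤ ‖ν + τ‖ ^ 2 := pow_le_pow_left₀ hα.le h3 2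
  have f4 : α ^ 2 ≤ ‖ν - τ‖ ^ 2 := pow_le_pow_left₀ hα.le h4 2
  set c := ν.re * τ.re + ν.im * τ.im with hc
  set s := ν.re * τ.im - ν.im * τ.re with hs
  have g1 : α ^ 2 ≤ 2 + 2 * c := by rw [hc]; nlinarith
  have g2 : α ^ 2 ≤ 2 - 2 * c := by rw [hc]; nlinarith
  have g3 : c ^ 2 + s ^ 2 = 1 := by
    have : c ^ 2 + s ^ 2 = (ν.re ^ 2 + ν.im ^ 2) * (τ.re ^ 2 + τ.im ^ 2) := by rw [hc, hs]; ring
    rw [this, e1, e2, one_mul]
  clear_value c s
  clear e1 e2 e3 e4 f3 f4 hc hs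
  refine ⟨?_, by nlinarith⟩
  have g4 : (α / 2) ^ 2 ≤ s ^ 2 := by
    have g5 : s ^ 2 = (1 - c) * (1 + c) := by linarith
    have g6 := sq_nonneg α
    rcases le_total 0 c with h | h
    · have := mul_le_mul_of_nonneg_left (show 1 ≤ 1 + c by linarith) (show 0 ≤ 1 - c by linarith)
      linarith
    · have := mul_le_mul_of_nonneg_right (show 1 ≤ 1 - c by linarith) (show 0 ≤ 1 + c by linarith)
      linarith
  exact (abs_of_pos (half_pos hα)).symm.trans_le (sq_le_sq.1 g4)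

/-- the estimates in real coordinates -/
theorem core {h w n1 n2 t1 t2 a α κ C l : ℝ} (hn : n1 ^ 2 + n2 ^ 2 = 1) (ht : t1 ^ 2 + t2 ^ 2 = 1)
    (hn1 : 1 / 2 ≤ n1) (ha : a = h * n1 + w * n2) (hκ : 0 < κ) (hκα : 100 * κ ≤ α) (hα : α ≤ 2)
    (hC : 0 ≤ C) (hl : l ≤ |h| + |w|) (hb : |a| ≤ κ * l + C) :
    |h| ≤ 3 * |w| + 4 * C ∧ (12 * (C + 1) ≤ α * |w| → α / 2 ≤ |n1 * t2 - n2 * t1| →
      (0 < w * (n1 * t2 - n2 * t1) → κ * (l + 2) ≤ h * t1 + w * t2 - 2) ∧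
      (w * (n1 * t2 - n2 * t1) < 0 → κ * (l + 2) ≤ -(h * t1 + w * t2) - 2)) := by
  have b1 : n1 ≤ 1 := by nlinarith
  have b2 : |n2| ≤ 1 := by rw [abs_le]; constructor <;> nlinarith
  have b3 : |t1| ≤ 1 := by rw [abs_le]; constructor <;> nlinarith
  have w0 := abs_nonneg w
  have h0 := abs_nonneg h
  have c1 : |h| ≤ 2 * |a| + 2 * |w| := by
    have e : h * n1 = a - w * n2 := by rw [ha]; ring
    have e1 : |h| * n1 ≤ |a| + |w| := by
      rw [← abs_of_pos (show 0 < n1 by linarith), ← abs_mul, e]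
      exact (abs_sub _ _).trans (add_le_add le_rfl (abs_mul_le le_rfl b2))
    nlinarith
  have c2 : |a| ≤ κ * (|h| + |w|) + C := by
    have := mul_le_mul_of_nonneg_left hl hκ.le
    linarith
  have k1 : κ ≤ 1 / 50 := by linarith
  have a0 := abs_nonneg a
  have c3 : |a| ≤ 4 * κ * |w| + 2 * C := by
    have e1 : κ * |h| ≤ κ * (2 * |a| + 2 * |w|) := mul_le_mul_of_nonneg_left c1 hκ.le
    have e2 : κ * |a| ≤ 1 / 50 * |a| := mul_le_mul_of_nonneg_right k1 a0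
    have e3 : 0 ≤ κ * |w| := by positivity
    nlinarith
  have e4 : κ * |w| ≤ 1 / 50 * |w| := mul_le_mul_of_nonneg_right k1 w0
  have c4 : |h| ≤ 3 * |w| + 4 * C := by linarith
  refine ⟨c4, fun hw hs => ?_⟩
  set s := n1 * t2 - n2 * t1 with hsd
  have id1 : n1 * (h * t1 + w * t2) = t1 * a + w * s := by rw [ha, hsd]; ring
  have d1 : |t1 * a| ≤ |a| := by rw [mul_comm]; exact abs_mul_le le_rfl b3
  have d2 : α / 2 * |w| ≤ |w * s| := by rw [abs_mul, mul_comm]; exact mul_le_mul_of_nonneg_left hs w0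
  have d3 : κ * (l + 2) ≤ κ * (4 * |w| + 4 * C + 2) :=
    mul_le_mul_of_nonneg_left (by linarith) hκ.le
  have d4 : κ * (4 * C + 2) ≤ 1 / 50 * (4 * C + 2) := mul_le_mul_of_nonneg_right k1 (by linarith)
  have d5 : 100 * κ * |w| ≤ α * |w| := mul_le_mul_of_nonneg_right hκα w0
  have d6 : κ * (l + 2) + 2 ≤ |w * s| - |a| := by nlinarith
  have d7 : 0 ≤ |w * s| - |a| := by nlinarith
  have up : ∀ y X : ℝ, 0 ≤ X → X ≤ n1 * y → X ≤ y := fun y X h1 h2 => by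
    by_contra h3
    push Not at h3
    rcases le_total 0 y with h4 | h4 <;> nlinarith
  obtain ⟨d8, d9⟩ := abs_le.1 d1
  constructor
  · intro hp
    rw [abs_of_pos hp] at d6 d7
    have := up (h * t1 + w * t2) _ d7 (by rw [id1]; linarith)
    linarith
  · intro hp
    rw [abs_of_neg hp] at d6 d7
    have := up (-(h * t1 + w * t2)) _ d7 (by rw [mul_neg, id1]; linarith)
    linarith

theorem len_add_le (d u : ℤ × ℤ) {t : ℤ} (hu : Bx t u) : len (d + u) ≤ len d + 2 * t := by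
  have e : ∀ v : ℤ × ℤ, len v = ‖(⟨v.1, v.2⟩ : ℂ)‖ := fun v => by
    rw [Complex.norm_eq_sqrt_sq_add_sq]; rfl
  have h1 := hu.len_le
  rw [e] at h1
  rw [e, e]
  refine le_trans (le_of_eq ?_) ((norm_add_le (⟨d.1, d.2⟩ : ℂ) ⟨u.1, u.2⟩).trans (by linarith))
  congr 1
  apply Complex.ext <;> simp

theorem len_neg (d : ℤ × ℤ) : len (-d) = len d := by simp [len]

theorem Bx.neg {t : ℤ} {v : ℤ × ℤ} (h : Bx t v) : Bx t (-v) := by
  simpa [Bx] using h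

/-- The sign of the outer points near the boundary is determined by the side. -/
theorem side_of {S S' : Set (ℤ × ℤ)} {ν τ : ℂ} {α κ : ℝ} (h1 : ‖ν‖ = 1) (h2 : ‖τ‖ = 1)
    (h3 : α ≤ ‖ν + τ‖) (h4 : α ≤ ‖ν - τ‖) (hS : Epi S ν κ) (hS' : Epi S' τ κ) (hκ : 0 < κ)
    (hκα : 100 * κ ≤ α) {e : Fin 4} (he : 1 / 2 ≤ ht ν (st4 e)) {ρ W : ℕ} (hρ : 1 ≤ ρ)
    (hW : 12 * (4 * ρ + 5 : ℝ) ≤ α * W) (hW2 : 2 ≤ W) {u f₁ f₂ : ℤ × ℤ} (hu : Bx ρ u) (hu' : u ∈ S)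
    (g1 : Bx 1 f₁) (g2 : Bx 1 f₂) (g3 : f₁ ∉ S) (g4 : f₁ ∈ S') (g5 : f₂ ∉ S') {d p : ℤ × ℤ}
    (hd : d ∉ S) (hp : Bx ρ p) (hp' : d + p ∈ S) (hK : 3 * W + 16 * ρ + 16 ≤ zd d 0) :
    (2 ≤ hE (e + 1) d ∧ (d ∈ S' ↔ 0 < ν.re * τ.im - ν.im * τ.re)) ∨
      (hE (e + 1) d ≤ -2 ∧ (d ∈ S' ↔ ¬ 0 < ν.re * τ.im - ν.im * τ.re)) := by
  have hα : 0 < α := by linarith
  obtain ⟨hs, hα2⟩ := det_ge h1 h2 hα h3 h4
  have k1 : κ ≤ 1 := by linarith
  have hρ' : (1 : ℝ) ≤ ρ := by exact_mod_cast hρ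
  have hb : |ht ν d| ≤ κ * len d + (4 * ρ + 4) := by
    rw [abs_le]
    constructor
    · have a1 : ¬ κ * len (f₁ - (d + p)) ≤ ht ν (f₁ - (d + p)) := fun h =>
        epi_out hS g3 h hp'
      have a2 : f₁ - (d + p) = -(d + (p - f₁)) := by abel
      have a3 := len_add_le d (p - f₁) (hp.sub g1)
      have a4 := abs_le.1 ((hp.sub g1).ht_le h1.le)
      rw [a2, len_neg] at a1
      have a5 : ht ν (-(d + (p - f₁))) = -(ht ν d + ht ν (p - f₁)) := by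
        rw [← ht_add]; simp [ht]; ring
      rw [a5] at a1
      push_cast at a3 a4
      have a6 := mul_le_mul_of_nonneg_left a3 hκ.le
      have a7 : κ * (2 * (ρ + 1)) ≤ 1 * (2 * (ρ + 1)) :=
        mul_le_mul_of_nonneg_right k1 (by positivity)
      nlinarith [a4.2]
    · have a1 : ¬ κ * len (d - u) ≤ ht ν (d - u) := fun h => epi_out hS hd h hu'
      have a3 := len_add_le d (-u) (Bx.neg hu)
      have a4 := abs_le.1 (hu.ht_le h1.le)
      rw [← sub_eq_add_neg] at a3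
      rw [ht_sub] at a1
      push_cast at a3 a4
      have a6 := mul_le_mul_of_nonneg_left a3 hκ.le
      have a7 : κ * (2 * ρ) ≤ 1 * (2 * ρ) := mul_le_mul_of_nonneg_right k1 (by positivity)
      nlinarith [a4.2]
  obtain ⟨c1, c2⟩ := core (t1 := ht τ (st4 e)) (t2 := ht τ (st4 (e + 1))) (sq_eq h1 e) (sq_eq h2 e)
    he (ht_eq ν e d) hκ hκα hα2 (by positivity) (len_le' e d) hb
  have hw : W ≤ (hE (e + 1) d).natAbs := by
    have c3 : |hE e d| ≤ 3 * |hE (e + 1) d| + 4 * (4 * ρ + 4) := by exact_mod_cast c1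
    rw [zd_eq e, sub_zero] at hK
    rw [Int.abs_eq_natAbs, Int.abs_eq_natAbs] at c3
    omega
  have hw' : (W : ℝ) ≤ |(hE (e + 1) d : ℝ)| := by
    have : (W : ℤ) ≤ |hE (e + 1) d| := by rw [Int.abs_eq_natAbs]; exact_mod_cast hw
    exact_mod_cast this
  rw [det_eq, ← ht_eq] at c2
  obtain ⟨c3, c4⟩ := c2 (by nlinarith) hs
  have pin : 0 < (hE (e + 1) d : ℝ) * (ν.re * τ.im - ν.im * τ.re) → d ∈ S' := fun h => by
    have a1 := c3 h
    have a3 := len_add_le d (-f₁) (Bx.neg g1)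
    have a4 := abs_le.1 (g1.ht_le h2.le)
    rw [← sub_eq_add_neg] at a3
    have a5 := hS' f₁ g4 (d - f₁) (by
      rw [ht_sub]
      push_cast at a3 a4
      have a6 := mul_le_mul_of_nonneg_left a3 hκ.le
      linarith [a4.2])
    rwa [add_sub_cancel] at a5
  have pout : (hE (e + 1) d : ℝ) * (ν.re * τ.im - ν.im * τ.re) < 0 → d ∉ S' := fun h => by
    have a1 := c4 h
    have a3 := len_add_le d (-f₂) (Bx.neg g2)
    have a4 := abs_le.1 (g2.ht_le h2.le)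
    rw [← sub_eq_add_neg, ← len_neg, neg_sub] at a3
    refine epi_out hS' g5 ?_
    rw [ht_sub]
    push_cast at a3 a4
    have a6 := mul_le_mul_of_nonneg_left a3 hκ.le
    linarith [a4.1]
  have s0 : ν.re * τ.im - ν.im * τ.re ≠ 0 := fun h => by
    rw [h, abs_zero] at hs
    linarith
  rcases le_total 0 (hE (e + 1) d) with h | h
  · have a1 : 2 ≤ hE (e + 1) d := by omega
    have a2 : (0 : ℝ) < hE (e + 1) d := by exact_mod_cast (by omega : 0 < hE (e + 1) d)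
    refine Or.inl ⟨a1, fun a3 => ?_, fun a3 => pin (mul_pos a2 a3)⟩
    by_contra a4
    exact pout (mul_neg_of_pos_of_neg a2 (lt_of_le_of_ne (not_lt.1 a4) s0)) a3
  · have a1 : hE (e + 1) d ≤ -2 := by omega
    have a2 : (hE (e + 1) d : ℝ) < 0 := by exact_mod_cast (by omega : hE (e + 1) d < 0)
    exact Or.inr ⟨a1, fun a3 a4 => pout (mul_neg_of_neg_of_pos a2 a4) a3,
      fun a3 => pin (mul_pos_of_neg_of_neg a2 (lt_of_le_of_ne (not_lt.1 a3) s0))⟩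

end IMark

end Vale.Agent.P144Z
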