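import Vale.Agent.P144D.I.Mark.A

/-!
Marked points of a boundary condition, second part: the marked vertex near a sign change.
-/

namespace Vale.Agent.P144Z

namespace IMark

open GeoA B5b

variable {Λ : Finset (ℤ × ℤ)} {b : ℤ × ℤ → Bool} {α κ : ℝ} {r : ℕ}

theorem zd_sub0 (g z : ℤ × ℤ) : zd (g - z) 0 = zd g z := by simp [zd]

theorem zd_add0 (z w : ℤ × ℤ) : zd (z + w) z = zd w 0 := by simp [zd]

theorem fin_four : ∀ e k : Fin 4, k = e - 1 ∨ k = e ∨ k = e + 2 - 1 ∨ k = e + 2 := by decide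

theorem zd_cn (v : ℤ × ℤ) (k : Fin 4) : zd (v - cn k) v ≤ 1 := by
  fin_cases k <;> simp [zd, cn]

theorem bx_cn (k : Fin 4) : Bx 1 (cn k) := by
  fin_cases k <;> simp [Bx, cn]

theorem bx_smul (n : ℕ) (e : Fin 4) : Bx n ((n : ℤ) • st4 e) := by
  fin_cases e <;> simp [Bx, st4]

theorem zd_smul (t : ℤ) (e : Fin 4) : zd (t • st4 e) 0 = t.natAbs := by
  fin_cases e <;> simp [zd, st4]

theorem ht_smul (ν : ℂ) (t : ℤ) (v : ℤ × ℤ) : ht ν (t • v) = t * ht ν v := by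
  simp [ht]; ring

theorem len_smul (n : ℕ) (e : Fin 4) : len ((n : ℤ) • st4 e) ≤ n := by
  have := len_le ((n : ℤ) • st4 e)
  fin_cases e <;> simpa [st4] using this

theorem hE_line (e : Fin 4) (d : ℤ × ℤ) (t : ℤ) : hE (e + 1) (d - t • st4 e) = hE (e + 1) d := by
  fin_cases e <;> simp [hE, st4]

theorem epi_up {S : Set (ℤ × ℤ)} {ν : ℂ} (hS : Epi S ν κ) (hκ : κ ≤ 1 / 2) {e : Fin 4}
    (he : 1 / 2 ≤ ht ν (st4 e)) {u : ℤ × ℤ} (hu : u ∈ S) (n : ℕ) : u + (n : ℤ) • st4 e ∈ S := by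
  refine hS u hu _ ?_
  rw [ht_smul]
  have h0 : (0 : ℝ) ≤ n := Nat.cast_nonneg n
  have h1 := mul_le_mul_of_nonneg_right hκ (len_nonneg ((n : ℤ) • st4 e))
  have h2 := len_smul n e
  have h3 := mul_le_mul_of_nonneg_left he h0
  push_cast
  linarith

theorem epi_far {S : Set (ℤ × ℤ)} {ν : ℂ} (h1 : ‖ν‖ = 1) (hS : Epi S ν κ)
    (hκ : κ ≤ 1 / 50) {e : Fin 4} (he : 1 / 2 ≤ ht ν (st4 e)) {u p : ℤ × ℤ} (hu : u ∈ S) {n m : ℕ}
    (hp : Bx m p) (hm : 5 * m ≤ n) : u + ((n : ℤ) • st4 e + p) ∈ S := by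
  refine hS u hu _ ?_
  rw [ht_add, ht_smul]
  have h0 : (0 : ℝ) ≤ n := Nat.cast_nonneg n
  have h0' : (0 : ℝ) ≤ m := Nat.cast_nonneg m
  have h2 := len_smul n e
  have h3 := mul_le_mul_of_nonneg_left he h0
  have h4 := len_add_le ((n : ℤ) • st4 e) p hp
  have h5 := abs_le.1 (hp.ht_le h1.le)
  have h6 := mul_le_mul_of_nonneg_right hκ (len_nonneg ((n : ℤ) • st4 e + p))
  have h7 : (5 : ℝ) * m ≤ n := by exact_mod_cast hm
  push_cast at h4 h5 ⊢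
  linarith [h5.1]

/-- A wall of `b` on a removed edge near `Λ`. -/
def Bad (Λ : Finset (ℤ × ℤ)) (b : ℤ × ℤ → Bool) (R : ℕ) (v : ℤ × ℤ) : Prop :=
  (∃ a, RemE Λ v a ∧ WallE b v a) ∧ ∃ u ∈ Λ, zd u v ≤ R

/-- The local data at a sign change near `z`. -/
structure Loc (Λ : Finset (ℤ × ℤ)) (b : ℤ × ℤ → Bool) (κ : ℝ) (r ρ K₂ : ℕ) (z x : ℤ × ℤ)
    (e : Fin 4) (σ : Bool) : Prop where
  near : zd x z ≤ 10 * ρ
  mk1 : MkZ Λ κ (r / 2) x e
  low : ¬ Touch Λ (x - st4 e)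
  side : ∀ g, g ∉ Λ → (∃ u ∈ Λ, zd u g ≤ ρ) → K₂ ≤ zd g z → zd g z + ρ ≤ r →
    (2 ≤ hE (e + 1) (g - x) ∧ b g = σ) ∨ (hE (e + 1) (g - x) ≤ -2 ∧ b g = !σ)

theorem rem_of_low {x : ℤ × ℤ} {e : Fin 4} (h : ¬ Touch Λ (x - st4 e)) : RemE Λ x (e + 2) := by
  have h1 : ∀ k, x - st4 e - cn k ∉ Λ := fun k hk => h ⟨k, hk⟩
  have e1 : x - cn (e + 2 - 1) = x - st4 e - cn e := by
    fin_cases e <;> ext <;> simp [cn, st4]
  have e2 : x - cn (e + 2) = x - st4 e - cn (e - 1) := by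
    fin_cases e <;> ext <;> simp [cn, st4]
  exact ⟨e1 ▸ h1 _, e2 ▸ h1 _⟩

theorem exists_loc (h : BcZ Λ b α κ r) (hκ : 0 < κ) (hκα : 100 * κ ≤ α) {ρ W : ℕ} (hρ : 1 ≤ ρ)
    (hW : 12 * (4 * ρ + 5 : ℝ) ≤ α * W) (hW2 : 2 ≤ W) (hr : 24 * ρ ≤ r) {z : ℤ × ℤ}
    (hz : Bad Λ b ρ z) : ∃ x e σ, Loc Λ b κ r ρ (3 * W + 16 * ρ + 16) z x e σ := by
  classical
  obtain ⟨⟨a, ⟨r1, r2⟩, hw⟩, u, hu, huz⟩ := hz
  obtain ⟨f₁, f₂, g1, g2, g3, g4, g5, g6⟩ : ∃ f₁ f₂, f₁ ∉ Λ ∧ f₂ ∉ Λ ∧ zd f₁ z ≤ 1 ∧ zd f₂ z ≤ 1 ∧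
      b f₁ = true ∧ b f₂ = false := by
    unfold WallE at hw
    cases h1 : b (z - cn a)
    · exact ⟨_, _, r1, r2, zd_cn _ _, zd_cn _ _, by simpa [h1] using hw, h1⟩
    · exact ⟨_, _, r2, r1, zd_cn _ _, zd_cn _ _, h1, by simpa [h1] using hw⟩
  rcases h z ⟨u, hu, by omega⟩ with h1 | h1 | ⟨S, S', ν, τ, n1, n2, n3, n4, hS, hS', h1⟩
  · simp [h1 f₂ (by omega) g2] at g6
  · simp [h1 f₁ (by omega) g1] at g5
  have hα2 := (det_ge n1 n2 (by linarith) n3 n4).2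
  have k1 : κ ≤ 1 / 50 := by linarith
  have h2 : ∀ g, zd g z ≤ r → (g ∈ Λ ↔ g - z ∈ S) ∧ (g ∉ Λ → (b g = true ↔ g - z ∈ S')) := by
    intro g hg
    simpa using h1 (g - z) (by rwa [zd_sub0])
  obtain ⟨e, he⟩ := exists_dir n1
  have bu : Bx ρ (u - z) := bx_iff.1 (by rwa [zd_sub0])
  have bf₁ : Bx 1 (f₁ - z) := bx_iff (n := 1).1 (by rwa [zd_sub0])
  have bf₂ : Bx 1 (f₂ - z) := bx_iff (n := 1).1 (by rwa [zd_sub0])
  have su : u - z ∈ S := (h2 u (by omega)).1.1 hu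
  have sf₁ : f₁ - z ∉ S := fun h => g1 ((h2 f₁ (by omega)).1.2 h)
  have top : Touch Λ (z + ((10 * ρ : ℕ) + (10 * ρ : ℕ) - (10 * ρ : ℕ) : ℤ) • st4 e) := by
    refine ⟨0, (h2 _ ?_).1.2 ?_⟩
    · rw [← zd_sub0]
      simp only [cn, add_sub_cancel_right]
      simp only [Matrix.cons_val_zero, Prod.mk_zero_zero, sub_zero, add_sub_cancel_left, zd_smul]
      omega
    · have := epi_far n1 hS k1 he su (n := 10 * ρ) (Bx.neg bu) (by omega)
      convert this using 1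
      simp only [cn, add_sub_cancel_right]
      simp only [Matrix.cons_val_zero, Prod.mk_zero_zero, sub_zero]
      abel
  have bot : ¬ Touch Λ (z + ((0 : ℕ) - (10 * ρ : ℕ) : ℤ) • st4 e) := by
    rintro ⟨k, hk⟩
    have a1 : zd (z + ((0 : ℕ) - (10 * ρ : ℕ) : ℤ) • st4 e - cn k) z ≤ r := by
      have a2 := zd_tri (z + ((0 : ℕ) - (10 * ρ : ℕ) : ℤ) • st4 e - cn k)
        (z + ((0 : ℕ) - (10 * ρ : ℕ) : ℤ) • st4 e) z
      have a3 := zd_cn (z + ((0 : ℕ) - (10 * ρ : ℕ) : ℤ) • st4 e) k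
      have a4 := zd_smul ((0 : ℕ) - (10 * ρ : ℕ) : ℤ) e
      rw [zd_add0] at a2
      omega
    have a5 := epi_far n1 hS k1 he ((h2 _ a1).1.1 hk) (n := 10 * ρ) (m := 2)
      (p := f₁ - z + cn k) (bf₁.add (bx_cn k)) (by omega)
    refine sf₁ ?_
    convert a5 using 1
    simp only [Nat.cast_zero, zero_sub, neg_smul]
    abel
  have ex : ∃ n : ℕ, Touch Λ (z + ((n : ℤ) - (10 * ρ : ℕ)) • st4 e) :=
    ⟨10 * ρ + 10 * ρ, by simpa using top⟩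
  have n0 : Nat.find ex ≤ 10 * ρ + 10 * ρ := Nat.find_min' ex (by simpa using top)
  have n1' : Nat.find ex ≠ 0 := fun h => bot (h ▸ Nat.find_spec ex)
  have n2' := Nat.find_min ex (m := Nat.find ex - 1) (by omega)
  have n3' := Nat.find_spec ex
  generalize Nat.find ex = n at n0 n1' n2' n3'
  have low : ¬ Touch Λ (z + ((n : ℤ) - (10 * ρ : ℕ)) • st4 e - st4 e) := by
    convert n2' using 2
    rw [Nat.cast_sub (by omega)]
    simp only [sub_smul, one_smul, Nat.cast_one]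
    abel
  generalize ht' : ((n : ℤ) - (10 * ρ : ℕ)) = t at low n3'
  have t0 : zd (t • st4 e) 0 ≤ 10 * ρ := by rw [zd_smul]; omega
  refine ⟨z + t • st4 e, e, decide (0 < ν.re * τ.im - ν.im * τ.re), ?_, ⟨?_, rem_of_low low, n3'⟩,
    low, fun g hg ⟨p, hp, hpg⟩ a1 a2 => ?_⟩
  · rwa [← zd_sub0, add_sub_cancel_left]
  · refine ⟨{v | t • st4 e + v ∈ S}, ν, n1, fun v hv w hw => ?_, he, fun v hv => ?_⟩
    · have := hS _ hv w hw
      rwa [add_assoc] at this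
    · rw [add_assoc]
      refine (h1 _ ?_).1
      have := (bx_iff.1 t0).add (bx_iff.1 hv)
      exact bx_iff.2 (this.mono (by omega))
  · have a3 := h2 g (by omega)
    have a4 : zd p z ≤ r := by
      have := zd_tri p g z
      omega
    have a5 := side_of n1 n2 n3 n4 hS hS' hκ hκα he hρ hW hW2 bu su bf₁ bf₂ sf₁
      (((h2 f₁ (by omega)).2 g1).1 g5) (fun h => by simp [((h2 f₂ (by omega)).2 g2).2 h] at g6)
      (d := g - z) (p := p - g) (fun h => hg (a3.1.2 h)) (bx_iff.1 (by rwa [zd_sub0]))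
      (by rw [sub_add_sub_cancel']; exact (h2 p a4).1.1 hp) (by rwa [zd_sub0])
    rw [← sub_sub, hE_line]
    rw [← a3.2 hg] at a5
    rcases a5 with ⟨a6, a7⟩ | ⟨a6, a7⟩
    · exact Or.inl ⟨a6, by rw [Bool.eq_iff_iff, a7, decide_eq_true_iff]⟩
    · exact Or.inr ⟨a6, by rw [Bool.eq_iff_iff, a7]; simp⟩

/-- The side of the line through `x` in direction `e` on which the face `g` lies. -/
def lt (e : Fin 4) (x g : ℤ × ℤ) : Prop := 0 < 2 * hE (e + 1) (g - x) + hE (e + 1) (1, 1)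

theorem lt_of {e : Fin 4} {x g : ℤ × ℤ} (h : 2 ≤ hE (e + 1) (g - x)) : lt e x g := by
  have : -1 ≤ hE (e + 1) (1, 1) := by fin_cases e <;> simp [hE, st4]
  unfold lt
  omega

theorem not_lt_of {e : Fin 4} {x g : ℤ × ℤ} (h : hE (e + 1) (g - x) ≤ -2) : ¬ lt e x g := by
  have : hE (e + 1) (1, 1) ≤ 1 := by fin_cases e <;> simp [hE, st4]
  unfold lt
  omega

theorem lt_wall (e a : Fin 4) (x v : ℤ × ℤ) :
    ¬ (lt e x (v - cn (a - 1)) ↔ lt e x (v - cn a)) ↔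
      hE (e + 1) (v - x) = 0 ∧ (a = e ∨ a = e + 2) := by
  fin_cases e <;> fin_cases a <;> simp [lt, hE, st4, cn] <;> omega

theorem line_eq {e : Fin 4} {x v : ℤ × ℤ} (h : hE (e + 1) (v - x) = 0) :
    v = x + hE e (v - x) • st4 e := by
  fin_cases e <;> ext <;> simp [hE, st4] at h ⊢ <;> omega

theorem hE_cn (e a : Fin 4) (x v : ℤ × ℤ) :
    (hE e (v - cn (a - 1) - x) - hE e (v - cn a - x)).natAbs ≤ 1 := by
  fin_cases e <;> fin_cases a <;> simp [hE, st4, cn]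

theorem rem_down (v : ℤ × ℤ) (e : Fin 4) (h : RemE Λ (v + st4 e) (e + 2)) : RemE Λ v e := by
  have e1 : v + st4 e - cn (e + 2 - 1) = v - cn e := by
    fin_cases e <;> ext <;> simp [cn, st4] <;> omega
  have e2 : v + st4 e - cn (e + 2) = v - cn (e - 1) := by
    fin_cases e <;> ext <;> simp [cn, st4] <;> omega
  exact ⟨e2 ▸ h.2, e1 ▸ h.1⟩

/-- On the line through the marked vertex only one removed edge reaches `Λ`. -/
theorem line_rem {x v : ℤ × ℤ} {e a : Fin 4} (h : MkZ Λ κ r x e) (hκ : κ ≤ 1 / 2)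
    (low : ¬ Touch Λ (x - st4 e)) (hv : zd v x + 2 ≤ r) (h0 : hE (e + 1) (v - x) = 0)
    (ha : a = e ∨ a = e + 2) (h1 : Touch Λ v) (h2 : RemE Λ v a) : v = x ∧ a = e + 2 := by
  obtain ⟨⟨S, ν, -, hS, he, h3⟩, hrem, k, hk⟩ := h
  have h4 : ∀ g, zd g x ≤ r → (g ∈ Λ ↔ g - x ∈ S) := fun g hg => by
    simpa using h3 (g - x) (by rwa [zd_sub0])
  have up : ∀ (g : ℤ × ℤ) (n : ℕ), g ∈ Λ → zd g x ≤ r → zd (g + (n : ℤ) • st4 e) x ≤ r →
      g + (n : ℤ) • st4 e ∈ Λ := fun g n a1 a2 a3 => by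
    refine (h4 _ a3).2 ?_
    have := epi_up hS hκ he ((h4 g a2).1 a1) n
    rwa [add_sub_right_comm]
  have pres : ∀ n : ℕ, n + 1 ≤ r → ¬ RemE Λ (x + (n : ℤ) • st4 e) e := by
    intro n hn hr
    have a1 : k = e - 1 ∨ k = e := by
      rcases fin_four e k with a2 | a2 | rfl | rfl
      exacts [Or.inl a2, Or.inr a2, (hrem.1 hk).elim, (hrem.2 hk).elim]
    have a3 := zd_cn x k
    have a4 : x - cn k + (n : ℤ) • st4 e ∈ Λ := by
      refine up _ n hk (by omega) ?_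
      have a5 := zd_tri (x - cn k + (n : ℤ) • st4 e) (x - cn k) x
      rw [zd_add0, zd_smul] at a5
      omega
    rw [← add_sub_right_comm] at a4
    rcases a1 with rfl | rfl
    exacts [hr.1 a4, hr.2 a4]
  have hl := line_eq h0
  have hz : (hE e (v - x)).natAbs ≤ zd v x := by rw [zd_eq e]; exact le_max_left _ _
  generalize hE e (v - x) = t at hl hz
  rcases lt_or_ge t 0 with h5 | h5
  · exfalso
    obtain ⟨j, hj⟩ := h1
    obtain ⟨n, hn⟩ : ∃ n : ℕ, t = -(n + 1) := ⟨(-t - 1).toNat, by omega⟩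
    have a1 := zd_cn v j
    have a2 := zd_tri (v - cn j) v x
    have a3 : v - cn j + (n : ℤ) • st4 e = x - st4 e - cn j := by
      rw [hl, hn, neg_smul, add_smul, one_smul]
      abel
    refine low ⟨j, a3 ▸ up _ n hj (by omega) ?_⟩
    rw [a3]
    have a4 := zd_cn (x - st4 e) j
    have a5 := zd_tri (x - st4 e - cn j) (x - st4 e) x
    have a6 : zd (x - st4 e) x ≤ 1 := by fin_cases e <;> simp [zd, st4]
    omega
  obtain ⟨n, rfl⟩ := Int.eq_ofNat_of_zero_le h5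
  rcases ha with rfl | rfl
  · exact (pres n (by omega) (hl ▸ h2)).elim
  rcases n with _ | n
  · exact ⟨by simpa using hl, rfl⟩
  · refine (pres n (by omega) (rem_down _ e ?_)).elim
    convert h2 using 1
    rw [hl]
    push_cast
    rw [add_smul, one_smul, add_assoc]

end IMark

end Vale.Agent.P144Z
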